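import Vale.Agent.P369Cl.Main

/-!
P369: the entropy photon-number inequality with vacuum second input, for classical first inputs.
-/

open Real

namespace Vale.Agent.Results.P369.ClassicalPureLoss

open Vale.Agent.P369Cl

theorem result : ∀ (n N : ℕ) (α : Fin N → Fin n → ℂ) (p : Fin N → ℝ),
    (∀ i, 0 ≤ p i) → ∑ i, p i = 1 → ∀ η r : ℝ, 0 ≤ η → η ≤ 1 → 0 ≤ r →
    (n : ℝ) * ((r + 1) * log (r + 1) - r * log r) ≤ matrixEntropy (coherentGram α p 1) →
    (n : ℝ) * ((η * r + 1) * log (η * r + 1) - η * r * log (η * r))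
      ≤ matrixEntropy (coherentGram α p η) := by
  intro n N α p hp hp1 η r hη0 hη1 hr h
  have e : ∀ t : ℝ, gg t = (t + 1) * log (t + 1) - t * log t := fun t => by
    simp only [gg, negMulLog]; ring
  have hh := classical_pure_loss α hp hp1 hη0 hη1 hr (by rw [e]; exact h)
  rwa [e] at hh

end Vale.Agent.Results.P369.ClassicalPureLoss
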